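import Vale.Agent.P144Z.A1.Main
import Vale.Agent.P144Z.Cl
import Vale.Agent.P144Z.KP.Log

/-!
# Exponential, logarithm and naturality of the localized logarithm on the even algebra
-/

namespace Vale.Agent.P144Z

open Finset Matrix

namespace A2

section Gen

variable {A : Type*} [NormedCommRing A] [NormedAlgebra ℝ A] [CompleteSpace A]

theorem exp_eq_sum {x : A} {k : ℕ} (h : x ^ k = 0) :
    NormedSpace.exp x = ∑ n ∈ range k, ((n.factorial : ℝ)⁻¹) • x ^ n := by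
  refine (KP.hasSum_exp x).unique (hasSum_sum_of_ne_finset_zero fun n hn => ?_)
  have hk : k ≤ n := by simpa using hn
  rw [pow_eq_zero_of_le hk h, smul_zero]

/-- Second order expansion of the exponential of a nilpotent element. -/
theorem exp_second {x : A} (hx : IsNilpotent x) :
    ∃ w ∈ Algebra.adjoin ℝ {x}, NormedSpace.exp x = 1 + x + x ^ 2 * w := by
  obtain ⟨k, hk⟩ := hx
  have h2 : x ^ (k + 2) = 0 := pow_eq_zero_of_le (by omega) hk
  refine ⟨∑ n ∈ range k, (((n + 2).factorial : ℝ)⁻¹) • x ^ n, ?_, ?_⟩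
  · exact Subalgebra.sum_mem _ fun n _ => Subalgebra.smul_mem _
      (Subalgebra.pow_mem _ (Algebra.self_mem_adjoin_singleton ℝ x) n) _
  · rw [exp_eq_sum h2, sum_range_succ', sum_range_succ', mul_sum]
    simp only [Nat.factorial_zero, Nat.cast_one, inv_one, pow_zero, one_smul, zero_add,
      Nat.factorial_one, pow_one, mul_smul_comm, ← pow_add]
    rw [add_assoc (∑ n ∈ range k, _), add_comm (∑ n ∈ range k, _), add_comm x 1]
    congr 1
    refine sum_congr rfl fun n _ => ?_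
    rw [add_comm 2 n]

theorem eq_zero_of_exp {x : A} (hx : IsNilpotent x) (h : NormedSpace.exp x = 1) : x = 0 := by
  obtain ⟨w, -, hw⟩ := exp_second hx
  have h1 : x * (1 + x * w) = 0 := by
    rw [h] at hw
    linear_combination -hw
  have h2 : IsUnit (1 + x * w) :=
    ((Commute.all x w).isNilpotent_mul_right hx).isUnit_one_add
  exact h2.mul_left_eq_zero.1 h1

/-- The logarithm of one plus a nilpotent element. -/
theorem exists_log (k : ℕ) : ∀ N : A, N ^ k = 0 →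
    ∃ g ∈ Algebra.adjoin ℝ {N}, NormedSpace.exp g = 1 + N := by
  induction k with
  | zero =>
    intro N hN
    have h1 : (1 : A) = 0 := by simpa using hN
    refine ⟨0, Subalgebra.zero_mem _, ?_⟩
    rw [← mul_one (NormedSpace.exp 0), ← mul_one (1 + N), h1, mul_zero, mul_zero]
  | succ k ih =>
    intro N hN
    rcases Nat.eq_zero_or_pos k with rfl | hk
    · have h0 : N = 0 := by simpa using hN
      exact ⟨0, Subalgebra.zero_mem _, by simp [h0]⟩
    have hNm := Algebra.self_mem_adjoin_singleton ℝ N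
    obtain ⟨w, hw, he⟩ := exp_second (x := -N) (IsNilpotent.neg ⟨_, hN⟩)
    have hw' : w ∈ Algebra.adjoin ℝ {N} :=
      Algebra.adjoin_le (S := Algebra.adjoin ℝ {N})
        (by simp) hw
    set N' := N ^ 2 * ((1 + N) * w - 1) with hN'
    have hN'k : N' ^ k = 0 := by
      rw [hN', mul_pow, ← pow_mul, pow_eq_zero_of_le (by omega) hN, zero_mul]
    have hN'm : N' ∈ Algebra.adjoin ℝ {N} :=
      Subalgebra.mul_mem _ (Subalgebra.pow_mem _ hNm 2) (Subalgebra.sub_mem _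
        (Subalgebra.mul_mem _ (Subalgebra.add_mem _ (Subalgebra.one_mem _) hNm) hw')
        (Subalgebra.one_mem _))
    obtain ⟨g, hg, hge⟩ := ih N' hN'k
    refine ⟨g + N, Subalgebra.add_mem _
      (Algebra.adjoin_le (S := Algebra.adjoin ℝ {N}) (by simpa using hN'm) hg) hNm, ?_⟩
    have h1 : 1 + N' = (1 + N) * NormedSpace.exp (-N) := by
      rw [he, hN']; ring
    rw [KP.exp_add', hge, h1, mul_assoc, mul_comm (NormedSpace.exp (-N)), KP.exp_mul_exp_neg,
      mul_one]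

omit [CompleteSpace A] in
theorem exp_scalar (c : ℝ) : NormedSpace.exp (algebraMap ℝ A c) = algebraMap ℝ A (Real.exp c) := by
  rw [Real.exp_eq_exp_ℝ]
  exact (KP.map_exp' (algebraMap ℝ A) (continuous_algebraMap ℝ A) c).symm

end Gen

section Fin

variable {A B : Type*} [NormedCommRing A] [NormedAlgebra ℝ A] [FiniteDimensional ℝ A]
  [NormedCommRing B] [NormedAlgebra ℝ B]

theorem exp_mem_fin (R : Subalgebra ℝ A) {y : A} (hy : y ∈ R) : NormedSpace.exp y ∈ R := by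
  have := FiniteDimensional.complete ℝ A
  have hc : IsClosed (R : Set A) := (Subalgebra.toSubmodule R).closed_of_finiteDimensional
  refine hc.mem_of_tendsto (KP.hasSum_exp y) (Filter.Eventually.of_forall fun s => ?_)
  exact Subalgebra.sum_mem _ fun n _ => Subalgebra.smul_mem _ (Subalgebra.pow_mem _ hy n) _

theorem hom_exp_fin (Φ : A →ₗ[ℝ] B) (h1 : Φ 1 = 1) (hm : ∀ F G, Φ (F * G) = Φ F * Φ G) (F : A) :
    Φ (NormedSpace.exp F) = NormedSpace.exp (Φ F) := by
  have := FiniteDimensional.complete ℝ A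
  exact KP.map_exp' (AlgHom.ofLinearMap Φ h1 hm) Φ.continuous_of_finiteDimensional F

end Fin

variable {S S' : Type} [Fintype S] [DecidableEq S] [Fintype S'] [DecidableEq S']

/-- The scalar part on the even algebra. -/
noncomputable def ag : Ev S →ₐ[ℝ] ℝ := aug.comp Ev.val

theorem ag_apply (F : Ev S) : ag F = aug (Ev.val F) := rfl

/-- An even element is its scalar part plus a nilpotent element. -/
theorem nil (F : Ev S) : IsNilpotent (F - algebraMap ℝ (Ev S) (ag F)) := by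
  obtain ⟨F, hF⟩ := F
  have hF' : F ∈ CliffordAlgebra.evenOdd (0 : QuadraticForm ℝ (S → ℝ)) 0 := hF
  induction F, hF' using CliffordAlgebra.even_induction with
  | algebraMap r =>
    have h1 : (⟨algebraMap ℝ _ r, hF⟩ : evenS S) = algebraMap ℝ (Ev S) r := rfl
    rw [h1, AlgHom.commutes]
    simp
  | add x y hx hy ihx ihy =>
    let X : Ev S := ⟨x, hx⟩
    let Y : Ev S := ⟨y, hy⟩
    have h1 : IsNilpotent (X - algebraMap ℝ (Ev S) (ag X)) := ihx hx
    have h2 : IsNilpotent (Y - algebraMap ℝ (Ev S) (ag Y)) := ihy hy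
    change IsNilpotent (X + Y - algebraMap ℝ (Ev S) (ag (X + Y)))
    rw [map_add, map_add, add_sub_add_comm]
    exact (Commute.all _ _).isNilpotent_add h1 h2
  | ι_mul_ι_mul m₁ m₂ x hx ih =>
    let X : Ev S := ⟨x, hx⟩
    have h1 : (⟨_, hF⟩ : evenS S) = pp m₁ m₂ * X := by
      apply Ev.val_injective
      rw [map_mul, val_pp]
      rfl
    have h2 : pp m₁ m₂ * pp m₁ m₂ = 0 := by
      apply Ev.val_injective
      rw [map_mul, val_pp, map_zero, mul_assoc, ← mul_assoc (psi m₂), A1.psi_swap m₂ m₁, neg_mul,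
        mul_assoc, A1.psi_sq]
      simp
    have h3 : ag (pp m₁ m₂) = 0 := by
      rw [ag_apply, val_pp, map_mul, A1.aug_psi, zero_mul]
    rw [h1, map_mul, h3, zero_mul, map_zero, sub_zero]
    exact (Commute.all _ _).isNilpotent_mul_right ⟨2, by rw [pow_two, h2]⟩

theorem nil_of_ag {F : Ev S} (h : ag F = 0) : IsNilpotent F := by
  simpa [h] using nil F

theorem ag_exp (F : Ev S) : ag (NormedSpace.exp F) = Real.exp (ag F) := by
  rw [Real.exp_eq_exp_ℝ]
  exact KP.map_exp' (ag (S := S)) (ag (S := S)).toLinearMap.continuous_of_finiteDimensional F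

theorem exists_log_ev {y : Ev S} (hy : 0 < ag y) :
    ∃ g ∈ Algebra.adjoin ℝ {y}, NormedSpace.exp g = y := by
  set N : Ev S := (ag y)⁻¹ • y - 1 with hN
  have h0 : ag N = 0 := by
    rw [hN, map_sub, map_smul, map_one, smul_eq_mul, inv_mul_cancel₀ hy.ne', sub_self]
  obtain ⟨k, hk⟩ := nil_of_ag h0
  obtain ⟨g, hg, he⟩ := exists_log k N hk
  have hNm : N ∈ Algebra.adjoin ℝ {y} := Subalgebra.sub_mem _
    (Subalgebra.smul_mem _ (Algebra.self_mem_adjoin_singleton ℝ y) _) (Subalgebra.one_mem _)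
  refine ⟨algebraMap ℝ _ (Real.log (ag y)) + g, Subalgebra.add_mem _ (Subalgebra.algebraMap_mem _ _)
    (Algebra.adjoin_le (S := Algebra.adjoin ℝ {y}) (by simpa using hNm) hg), ?_⟩
  rw [KP.exp_add', exp_scalar, he, Real.exp_log hy, hN, add_sub_cancel, ← Algebra.smul_def,
    smul_smul, mul_inv_cancel₀ hy.ne', one_smul]

theorem ag_hom (Φ : Ev S →ₗ[ℝ] Ev S') (h1 : Φ 1 = 1) (hm : ∀ F G, Φ (F * G) = Φ F * Φ G)
    (y : Ev S) : ag (Φ y) = ag y := by
  have h := (nil y).map (ag.comp (AlgHom.ofLinearMap Φ h1 hm))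
  rw [map_sub, AlgHom.commutes, isNilpotent_iff_eq_zero, sub_eq_zero] at h
  exact h

theorem del_pow (g : S → ℝ) (N : Ev S) (n : ℕ) :
    del g (Ev.val (N ^ (n + 1))) = ((n : ℝ) + 1) • (del g (Ev.val N) * Ev.val (N ^ n)) := by
  induction n with
  | zero => simp
  | succ n ih =>
    rw [pow_succ' N (n + 1), map_mul, A1.del_mul, A1.mem_even_iff.1 (Ev.val_mem N), ih,
      mul_smul_comm, ← mul_assoc, ← mul_comm_of_even (Ev.val_mem N), mul_assoc, ← map_mul,
      ← pow_succ']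
    push_cast
    rw [add_smul ((n : ℝ) + 1), one_smul, add_comm]

end A2

section A2
variable {S S' : Type} [Fintype S] [DecidableEq S] [Fintype S'] [DecidableEq S']

theorem aug_exp (F : Ev S) : aug (Ev.val (NormedSpace.exp F)) = Real.exp (aug (Ev.val F)) :=
  A2.ag_exp F

theorem exp_ev_injective : Function.Injective (NormedSpace.exp : Ev S → Ev S) := by
  intro F G h
  have h1 : NormedSpace.exp (F - G) = 1 := by
    have h2 := KP.exp_sub_mul F G
    rw [h] at h2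
    exact (KP.isUnit_exp' G).mul_right_cancel (by rw [h2, one_mul])
  have h2 : A2.ag (F - G) = 0 := by
    have h3 := A2.ag_exp (F - G)
    rw [h1, map_one] at h3
    exact Real.exp_eq_one_iff _ |>.1 h3.symm
  exact sub_eq_zero.1 (A2.eq_zero_of_exp (A2.nil_of_ag h2) h1)

theorem lg_exp (F : Ev S) : lg (NormedSpace.exp F) = F := by
  have h : ∃ g : Ev S, NormedSpace.exp g = NormedSpace.exp F := ⟨F, rfl⟩
  rw [lg, dif_pos h]
  exact exp_ev_injective h.choose_spec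

theorem lg_of_nonpos {y : Ev S} (hy : aug (Ev.val y) ≤ 0) : lg y = 0 := by
  rw [lg, dif_neg]
  rintro ⟨g, rfl⟩
  rw [aug_exp] at hy
  exact absurd (Real.exp_pos _) (not_lt.2 hy)

theorem exp_lg {y : Ev S} (hy : 0 < aug (Ev.val y)) : NormedSpace.exp (lg y) = y := by
  obtain ⟨g, -, rfl⟩ := A2.exists_log_ev hy
  rw [lg_exp]

theorem hom_exp (Φ : Ev S →ₗ[ℝ] Ev S') (h1 : Φ 1 = 1) (hm : ∀ F G, Φ (F * G) = Φ F * Φ G)
    (F : Ev S) : Φ (NormedSpace.exp F) = NormedSpace.exp (Φ F) :=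
  A2.hom_exp_fin Φ h1 hm F

theorem hom_lg (Φ : Ev S →ₗ[ℝ] Ev S') (h1 : Φ 1 = 1) (hm : ∀ F G, Φ (F * G) = Φ F * Φ G)
    (y : Ev S) : Φ (lg y) = lg (Φ y) := by
  rcases lt_or_ge 0 (aug (Ev.val y)) with hy | hy
  · conv_rhs => rw [← exp_lg hy, hom_exp Φ h1 hm, lg_exp]
  · have hy' : aug (Ev.val (Φ y)) ≤ 0 := (A2.ag_hom Φ h1 hm y).le.trans hy
    rw [lg_of_nonpos hy, lg_of_nonpos hy', map_zero]

theorem exp_sq_zero {F : Ev S} (h : F * F = 0) : NormedSpace.exp F = 1 + F := by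
  obtain ⟨w, -, hw⟩ := A2.exp_second (x := F) ⟨2, by rw [pow_two, h]⟩
  rw [hw, pow_two, h, zero_mul, add_zero]

theorem exp_mem_sub (R : Subalgebra ℝ (Ev S)) {y : Ev S} (hy : y ∈ R) : NormedSpace.exp y ∈ R :=
  A2.exp_mem_fin R hy

theorem lg_mem_sub (R : Subalgebra ℝ (Ev S)) {y : Ev S} (hy : y ∈ R) : lg y ∈ R := by
  rcases lt_or_ge 0 (aug (Ev.val y)) with h | h
  · obtain ⟨g, hg, he⟩ := A2.exists_log_ev h
    have h1 : lg y = g := by rw [← he, lg_exp]
    rw [h1]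
    exact Algebra.adjoin_le (S := R) (by simpa using hy) hg
  · rw [lg_of_nonpos h]
    exact R.zero_mem

theorem lg_mem {T : Set S} {y : Ev S} (hy : y ∈ evLoc T) : lg y ∈ evLoc T := lg_mem_sub _ hy

theorem exp_mem {T : Set S} {y : Ev S} (hy : y ∈ evLoc T) : NormedSpace.exp y ∈ evLoc T :=
  exp_mem_sub _ hy

theorem del_exp (g : S → ℝ) (F : Ev S) : del g (Ev.val (NormedSpace.exp F))
    = del g (Ev.val F) * Ev.val (NormedSpace.exp F) := by
  obtain ⟨k, hk⟩ := A2.nil F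
  set N := F - algebraMap ℝ (Ev S) (A2.ag F) with hN
  have hF : F = algebraMap ℝ (Ev S) (A2.ag F) + N := by rw [hN]; ring
  have h1 : del g (Ev.val F) = del g (Ev.val N) := by
    rw [hN, map_sub, map_sub, AlgHom.commutes, Algebra.algebraMap_eq_smul_one, map_smul,
      A1.del_one, smul_zero, sub_zero]
  have h2 : del g (Ev.val (NormedSpace.exp N)) = del g (Ev.val N) * Ev.val (NormedSpace.exp N) := by
    conv_lhs => rw [A2.exp_eq_sum (pow_eq_zero_of_le (Nat.le_succ k) hk), sum_range_succ']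
    rw [A2.exp_eq_sum hk]
    simp only [map_add, map_sum, map_smul, pow_zero, map_one, A1.del_one, smul_zero, add_zero,
      A2.del_pow, mul_sum, mul_smul_comm, smul_smul]
    refine sum_congr rfl fun n _ => ?_
    congr 1
    rw [Nat.factorial_succ]
    push_cast
    have : (n : ℝ) + 1 ≠ 0 := by positivity
    field_simp
  have h3 : NormedSpace.exp F = Real.exp (A2.ag F) • NormedSpace.exp N := by
    conv_lhs => rw [hF]
    rw [KP.exp_add', A2.exp_scalar, Algebra.smul_def]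
  rw [h3, h1, map_smul, map_smul, h2, mul_smul_comm]

theorem Cl_hom {P P' 𝒜 ℬ : Type} [DecidableEq P] [DecidableEq P'] [NormedCommRing 𝒜]
    [NormedAlgebra ℝ 𝒜] [NormedCommRing ℬ] [NormedAlgebra ℝ ℬ] [FiniteDimensional ℝ 𝒜]
    [FiniteDimensional ℝ ℬ] (E : 𝒜 →ₗ[ℝ] Ev S) (E' : ℬ →ₗ[ℝ] Ev S') (Φ₀ : 𝒜 →ₗ[ℝ] ℬ)
    (h01 : Φ₀ 1 = 1) (h0m : ∀ F G, Φ₀ (F * G) = Φ₀ F * Φ₀ G) (Φ : Ev S →ₗ[ℝ] Ev S')
    (h1 : Φ 1 = 1) (hm : ∀ F G, Φ (F * G) = Φ F * Φ G) (φ : P → P') (U : Finset P)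
    (hφ : Set.InjOn φ U) (R : Subalgebra ℝ 𝒜) (hE : ∀ F ∈ R, E' (Φ₀ F) = Φ (E F))
    (H : Finset P → 𝒜) (H' : Finset P' → ℬ) (hH : ∀ X ⊆ U, H X ∈ R)
    (hH' : ∀ X ⊆ U, H' (X.image φ) = Φ₀ (H X)) :
    Cl E' H' (U.image φ) = Φ (Cl E H U) := by
  unfold Cl
  rw [powerset_image, sum_image (image_injOn_powerset_of_injOn hφ), map_sum]
  refine sum_congr rfl fun W hW => ?_
  have hWU : W ⊆ U := mem_powerset.1 hW
  have hφW : Set.InjOn φ W := hφ.mono (coe_subset.2 hWU)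
  rw [← image_sdiff_of_injOn hφ hWU, card_image_of_injOn (hφ.mono (coe_subset.2 sdiff_subset)),
    map_smul, hom_lg Φ h1 hm, powerset_image, sum_image (image_injOn_powerset_of_injOn hφW)]
  have h2 : ∑ X ∈ W.powerset, H' (X.image φ) = Φ₀ (∑ X ∈ W.powerset, H X) := by
    rw [map_sum]
    exact sum_congr rfl fun X hX => hH' X ((mem_powerset.1 hX).trans hWU)
  rw [h2, ← A2.hom_exp_fin Φ₀ h01 h0m, hE _ (A2.exp_mem_fin R
    (R.sum_mem fun X hX => hH X ((mem_powerset.1 hX).trans hWU)))]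

theorem Cl_congr {P 𝒜 : Type} [DecidableEq P] [NormedCommRing 𝒜] [NormedAlgebra ℝ 𝒜]
    (E : 𝒜 →ₗ[ℝ] Ev S) {H H' : Finset P → 𝒜} {U : Finset P} (h : ∀ X ⊆ U, H X = H' X) :
    Cl E H U = Cl E H' U := by
  unfold Cl
  refine sum_congr rfl fun W hW => ?_
  rw [sum_congr rfl fun X hX => h X ((mem_powerset.1 hX).trans (mem_powerset.1 hW))]

theorem Cl_mem_sub {P 𝒜 : Type} [DecidableEq P] [NormedCommRing 𝒜] [NormedAlgebra ℝ 𝒜]
    [FiniteDimensional ℝ 𝒜] (E : 𝒜 →ₗ[ℝ] Ev S) (R₀ : Finset P → Subalgebra ℝ 𝒜)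
    (R : Finset P → Subalgebra ℝ (Ev S)) (h₀ : ∀ X Y, X ⊆ Y → R₀ X ≤ R₀ Y)
    (hR : ∀ X Y, X ⊆ Y → R X ≤ R Y) (hE : ∀ W, ∀ F ∈ R₀ W, E F ∈ R W) {H : Finset P → 𝒜}
    {U : Finset P} (hH : ∀ X ⊆ U, H X ∈ R₀ X) : Cl E H U ∈ R U := by
  unfold Cl
  refine (R U).sum_mem fun W hW => (R U).smul_mem (hR W U (mem_powerset.1 hW) ?_) _
  refine lg_mem_sub _ (hE W _ (A2.exp_mem_fin _ ((R₀ W).sum_mem fun X hX => ?_)))
  exact h₀ X W (mem_powerset.1 hX) (hH X ((mem_powerset.1 hX).trans (mem_powerset.1 hW)))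

theorem Cl_mem {P : Type} [DecidableEq P] {C : Matrix S S ℝ} (pos : S → P)
    {H : Finset P → Ev S} (hH : ∀ X, H X ∈ evLoc {s | pos s ∈ X}) (U : Finset P) :
    Cl (evG C) H U ∈ evLoc {s | pos s ∈ U} := by
  have hmono : ∀ X Y : Finset P, X ⊆ Y →
      evLoc {s | pos s ∈ X} ≤ (evLoc {s | pos s ∈ Y} : Subalgebra ℝ (Ev S)) :=
    fun X Y hXY F hF =>
      A1.loc_mono (T := {s | pos s ∈ X}) (T' := {s | pos s ∈ Y}) (fun _ hs => hXY hs) hF
  refine Cl_mem_sub (evG C) (fun X => evLoc {s | pos s ∈ X}) (fun X => evLoc {s | pos s ∈ X})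
    hmono hmono (fun W F hF => ?_) fun X _ => hH X
  change Ev.val (evG C F) ∈ loc _
  rw [val_evG]
  exact gauss_loc C hF

end A2

end Vale.Agent.P144Z
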